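import Vale.Agent.P057.Gen.Poly

/-! A random set with deletions in which polynomial progressions are constant. -/

namespace Vale.Agent.P057.Gen

open Finset Polynomial

variable {k d : ℕ}

/-- The class representatives of a pattern. -/
def reps (π : Fin k → Fin k) : Finset (Fin k) := univ.image π

/-- The members of a class. -/
def cls (π : Fin k → Fin k) (c : Fin k) : Finset (Fin k) := univ.filter (fun i => π i = c)

/-- Larger classes first, ties broken by the representative. -/
def key (π : Fin k → Fin k) (c : Fin k) : ℕ := (cls π c).card * k + c.val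

/-- `f` is a progression of degree `d` which is constant on the classes of `π`. -/
def InW (d : ℕ) (π : Fin k → Fin k) (f : ℕ → ℤ) : Prop :=
  PolySeq k d f ∧ ∀ i : Fin k, f i = f (π i)

open scoped Classical in
/-- Classes whose value is not determined by the earlier classes. -/
noncomputable def piv (d : ℕ) (π : Fin k → Fin k) : Finset (Fin k) :=
  (reps π).filter (fun c => ∃ f, InW d π f ∧
    (∀ e ∈ reps π, key π c < key π e → f e = 0) ∧ f c ≠ 0)

theorem key_inj (π : Fin k → Fin k) : Function.Injective (key π) := by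
  intro a b h
  have h2 := congrArg (· % k) h
  simp only [key, Nat.mul_add_mod_self_right, Nat.mod_eq_of_lt a.isLt, Nat.mod_eq_of_lt b.isLt] at h2
  exact Fin.ext h2

theorem card_cls_le_of_key {π : Fin k → Fin k} {c e : Fin k} (h : key π c < key π e) :
    (cls π c).card ≤ (cls π e).card := by
  by_contra hlt
  push Not at hlt
  have h2 := Nat.mul_le_mul_right k (Nat.succ_le_of_lt hlt)
  simp only [key] at h
  have := e.isLt
  rw [Nat.succ_mul] at h2
  omega

/-- The pivot classes determine everything. -/
theorem piv_determines {π : Fin k → Fin k} {f : ℕ → ℤ} (hf : InW d π f)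
    (h0 : ∀ c ∈ piv d π, f c = 0) : ∀ c ∈ reps π, f c = 0 := by
  classical
  by_contra hcon
  push Not at hcon
  obtain ⟨c0, hc0, hne0⟩ := hcon
  obtain ⟨c, hc, hmax⟩ := Finset.exists_max_image ((reps π).filter (fun c : Fin k => f c ≠ 0)) (key π)
    ⟨c0, Finset.mem_filter.2 ⟨hc0, hne0⟩⟩
  obtain ⟨hcr, hcne⟩ := Finset.mem_filter.1 hc
  refine hcne (h0 c (Finset.mem_filter.2 ⟨hcr, f, hf, fun e he hlt => ?_, hcne⟩))
  by_contra hne
  have := hmax e (Finset.mem_filter.2 ⟨he, hne⟩)
  omega

/-- The number of pivot classes is small. -/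
theorem card_piv {p : ℕ} (hp : p.Prime) (hdp : d + 2 ≤ p) (hpk : p ≤ k) {π : Fin k → Fin k}
    (hidem : ∀ i, π (π i) = π i) (hs : 2 ≤ (reps π).card) :
    (piv d π).card < (reps π).card ∧ (piv d π).card ≤ d + 1 ∧
      ((piv d π).card - 1) * k ≤ (reps π).card * d := by
  classical
  rcases (piv d π).eq_empty_or_nonempty with he | hne
  · rw [he, Finset.card_empty]; exact ⟨by omega, by omega, by simp⟩
  obtain ⟨t, ht, hmin⟩ := Finset.exists_min_image (piv d π) (key π) hne
  obtain ⟨htr, f, ⟨hfp, hfc⟩, hzero, hft⟩ := Finset.mem_filter.1 ht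
  set Z := (reps π).filter (fun e => key π t < key π e) with hZ
  have hsub : (piv d π).erase t ⊆ Z := fun e he => by
    obtain ⟨hne', hem⟩ := Finset.mem_erase.1 he
    refine Finset.mem_filter.2 ⟨(Finset.mem_filter.1 hem).1, ?_⟩
    exact lt_of_le_of_ne (hmin e hem) fun h => hne' (key_inj π h.symm)
  have hr : (piv d π).card - 1 ≤ Z.card := by
    rw [← Finset.card_erase_of_mem ht]; exact Finset.card_le_card hsub
  have hroots : ∑ e ∈ Z, (cls π e).card ≤ d := by
    by_contra hlt
    push Not at hlt
    refine hft (hfp.eq_zero ((Z.biUnion (cls π)).image Fin.val) ?_ ?_ ?_ t t.isLt)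
    · intro i hi
      obtain ⟨j, -, rfl⟩ := Finset.mem_image.1 hi
      exact j.isLt
    · rw [Finset.card_image_of_injective _ Fin.val_injective, Finset.card_biUnion]
      · exact hlt
      · intro a _ b _ hab
        refine Finset.disjoint_left.2 fun i ha hb => hab ?_
        simp only [cls, mem_filter, mem_univ, true_and] at ha hb
        rw [← ha, hb]
    · intro i hi
      obtain ⟨j, hj, rfl⟩ := Finset.mem_image.1 hi
      obtain ⟨e, he, hje⟩ := Finset.mem_biUnion.1 hj
      simp only [cls, mem_filter, mem_univ, true_and] at hje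
      obtain ⟨her, helt⟩ := Finset.mem_filter.1 he
      rw [hfc j, hje]
      exact hzero e her helt
  have hpos : ∀ e ∈ reps π, 1 ≤ (cls π e).card := fun e he => by
    obtain ⟨i, -, hi⟩ := Finset.mem_image.1 he
    exact Finset.card_pos.2 ⟨i, by simp [cls, hi]⟩
  have hZle : Z.card ≤ d := by
    refine le_trans ?_ hroots
    simpa using Finset.card_nsmul_le_sum Z (fun e => (cls π e).card) 1
      (fun e he => hpos e (Finset.mem_filter.1 he).1)
  refine ⟨?_, by omega, ?_⟩
  · by_contra hge
    push Not at hge
    have hall : piv d π = reps π := Finset.eq_of_subset_of_card_le (Finset.filter_subset _ _) hge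
    have hind : PolySeq k d (fun i => if f i = 0 then 0 else 1) := by
      obtain ⟨P, hP, hPe⟩ := hfp
      have hft' : (f t : ℚ) ≠ 0 := by exact_mod_cast hft
      refine ⟨Polynomial.C ((f t : ℚ))⁻¹ * P, (natDegree_C_mul_le _ _).trans hP, fun j hj => ?_⟩
      rw [eval_mul, eval_C, hPe j hj]
      dsimp only
      by_cases h0 : f j = 0
      · simp [h0]
      · rw [if_neg h0]
        have hjt : π ⟨j, hj⟩ = t := by
          by_contra hne'
          have hmem : π ⟨j, hj⟩ ∈ (piv d π).erase t :=
            Finset.mem_erase.2 ⟨hne', hall ▸ Finset.mem_image_of_mem _ (mem_univ _)⟩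
          obtain ⟨her, helt⟩ := Finset.mem_filter.1 (hsub hmem)
          exact h0 ((hfc ⟨j, hj⟩).trans (hzero _ her helt))
        have hfj : f j = f t := by rw [← hjt]; exact hfc ⟨j, hj⟩
        rw [hfj, Int.cast_one, inv_mul_cancel₀ hft']
    have hc := indicator_const hp hdp hpk hind (fun i _ => by by_cases h : f i = 0 <;> simp [h])
    obtain ⟨e, he⟩ : ((piv d π).erase t).Nonempty := by
      rw [← Finset.card_pos, Finset.card_erase_of_mem ht, hall]; omega
    obtain ⟨her, helt⟩ := Finset.mem_filter.1 (hsub he)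
    have h1 := hc t t.isLt
    have h2 := hc e e.isLt
    simp only [hft, if_false] at h1
    simp only [hzero e her helt, if_true, ← h1] at h2
    norm_num at h2
  · set O := (reps π).filter (fun e => ¬ key π t < key π e) with hO
    have hsplit : ∑ e ∈ Z, (cls π e).card + ∑ e ∈ O, (cls π e).card = k := by
      rw [hZ, hO, Finset.sum_filter_add_sum_filter_not]
      have h := Finset.card_eq_sum_card_fiberwise (f := π) (s := (univ : Finset (Fin k)))
        (t := reps π) (fun i _ => Finset.mem_image_of_mem _ (mem_univ _))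
      rw [Finset.card_univ, Fintype.card_fin] at h
      exact h.symm
    have hcard : Z.card + O.card = (reps π).card := Finset.card_filter_add_card_filter_not _
    have hcross : (∑ o ∈ O, (cls π o).card) * Z.card ≤ O.card * ∑ e ∈ Z, (cls π e).card := by
      rw [Finset.sum_mul]
      calc ∑ o ∈ O, (cls π o).card * Z.card ≤ ∑ _o ∈ O, ∑ e ∈ Z, (cls π e).card := by
            refine Finset.sum_le_sum fun o ho => ?_
            rw [mul_comm, ← smul_eq_mul]
            refine Finset.card_nsmul_le_sum _ _ _ fun e he => ?_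
            refine card_cls_le_of_key (lt_of_le_of_lt ?_ (Finset.mem_filter.1 he).2)
            exact not_lt.1 (Finset.mem_filter.1 ho).2
        _ = _ := by rw [Finset.sum_const, smul_eq_mul]
    calc ((piv d π).card - 1) * k ≤ Z.card * k := Nat.mul_le_mul_right _ hr
      _ = Z.card * (∑ e ∈ Z, (cls π e).card + ∑ e ∈ O, (cls π e).card) := by rw [hsplit]
      _ = Z.card * ∑ e ∈ Z, (cls π e).card + (∑ o ∈ O, (cls π o).card) * Z.card := by ring
      _ ≤ Z.card * ∑ e ∈ Z, (cls π e).card + O.card * ∑ e ∈ Z, (cls π e).card :=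
          Nat.add_le_add_left hcross _
      _ = (reps π).card * ∑ e ∈ Z, (cls π e).card := by rw [← hcard]; ring
      _ ≤ (reps π).card * d := Nat.mul_le_mul_left _ hroots

/-- A pattern together with sample indices for its classes which realise a nonconstant
progression. -/
def Bad (d : ℕ) {K R : ℕ} (g : Fin K → Fin R) (x : (Fin k → Fin k) × (Fin k → Fin K)) : Prop :=
  (∀ i, x.1 (x.1 i) = x.1 i) ∧ 2 ≤ (reps x.1).card ∧ Set.InjOn x.2 (reps x.1) ∧
    (∀ i, x.2 i = x.2 (x.1 i)) ∧ PolySeq k d (fun j => if h : j < k then ((g (x.2 ⟨j, h⟩)).val : ℤ) else 0)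

open scoped Classical in
theorem card_bad_le {K R : ℕ} (hR : 0 < R) (x : (Fin k → Fin k) × (Fin k → Fin K))
    (hinj : Set.InjOn x.2 (reps x.1)) :
    ((univ : Finset (Fin K → Fin R)).filter (fun g => Bad d g x)).card
      * R ^ ((reps x.1).card - (piv d x.1).card) ≤ R ^ K := by
  obtain ⟨π, idx⟩ := x
  dsimp only at hinj ⊢
  set U := ((reps π) \ (piv d π)).image idx with hU
  have hUc : U.card = (reps π).card - (piv d π).card := by
    rw [hU, Finset.card_image_of_injOn (hinj.mono (Finset.coe_subset.2 Finset.sdiff_subset)),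
      Finset.card_sdiff_of_subset (show piv d π ⊆ reps π from Finset.filter_subset _ _)]
  have key : ((univ : Finset (Fin K → Fin R)).filter (fun g => Bad d g (π, idx))).card
      ≤ (Fintype.piFinset (fun i => if i ∈ U then ({⟨0, hR⟩} : Finset (Fin R)) else univ)).card := by
    refine Finset.card_le_card_of_injOn (fun g i => if i ∈ U then ⟨0, hR⟩ else g i) ?_ ?_
    · intro g _
      rw [Finset.mem_coe, Fintype.mem_piFinset]
      intro i
      by_cases h : i ∈ U <;> simp [h]
    · intro g hg g' hg' hgg
      obtain ⟨-, -, -, hc, hp⟩ := (Finset.mem_filter.1 hg).2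
      obtain ⟨-, -, -, -, hp'⟩ := (Finset.mem_filter.1 hg').2
      replace hc : ∀ i, idx i = idx (π i) := hc
      have hout : ∀ i, i ∉ U → g i = g' i := fun i hi => by
        have := congrFun hgg i
        simpa [hi] using this
      have hW : InW d π (fun j => (if h : j < k then ((g (idx ⟨j, h⟩)).val : ℤ) else 0)
          - (if h : j < k then ((g' (idx ⟨j, h⟩)).val : ℤ) else 0)) := by
        refine ⟨hp.sub hp', fun i => ?_⟩
        simp only [Fin.is_lt, dif_pos, Fin.eta]
        rw [← hc i]
      have hz := piv_determines hW (fun c hc' => by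
        simp only [Fin.is_lt, dif_pos, Fin.eta]
        rw [hout (idx c) (fun hm => ?_), sub_self]
        obtain ⟨e, he, hee⟩ := Finset.mem_image.1 hm
        obtain ⟨her, hep⟩ := Finset.mem_sdiff.1 he
        exact hep (by rwa [hinj her (Finset.filter_subset _ _ hc') hee]))
      funext i
      by_cases hi : i ∈ U
      · obtain ⟨c, hc', rfl⟩ := Finset.mem_image.1 hi
        have := hz c (Finset.mem_sdiff.1 hc').1
        simp only [Fin.is_lt, dif_pos, Fin.eta] at this
        exact Fin.ext (by omega)
      · exact hout i hi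
  refine (Nat.mul_le_mul_right _ key).trans (le_of_eq ?_)
  rw [Fintype.card_piFinset]
  simp only [apply_ite Finset.card, Finset.card_singleton, Finset.card_univ, Fintype.card_fin]
  rw [Finset.prod_ite, Finset.prod_const_one, one_mul, Finset.prod_const, ← pow_add]
  congr 1
  have hUK : U.card ≤ K := (Finset.card_le_univ _).trans (le_of_eq (Fintype.card_fin K))
  rw [Finset.filter_not, Finset.filter_mem_eq_inter, Finset.univ_inter,
    Finset.card_sdiff_of_subset (Finset.subset_univ _), Finset.card_univ, Fintype.card_fin]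
  omega

open scoped Classical in
theorem card_coll_le {K R : ℕ} (hR : 0 < R) {a b : Fin K} (hab : a ≠ b) :
    ((univ : Finset (Fin K → Fin R)).filter (fun g => g a = g b)).card * R ≤ R ^ K := by
  have key : ((univ : Finset (Fin K → Fin R)).filter (fun g => g a = g b)).card
      ≤ (Fintype.piFinset (fun i => if i = a then ({⟨0, hR⟩} : Finset (Fin R)) else univ)).card := by
    refine Finset.card_le_card_of_injOn (fun g i => if i = a then ⟨0, hR⟩ else g i) ?_ ?_
    · intro g _
      rw [Finset.mem_coe, Fintype.mem_piFinset]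
      intro i
      by_cases h : i = a <;> simp [h]
    · intro g hg g' hg' hgg
      have hout : ∀ i, i ≠ a → g i = g' i := fun i hi => by
        have := congrFun hgg i
        simpa [hi] using this
      funext i
      by_cases hi : i = a
      · subst hi
        rw [(Finset.mem_filter.1 hg).2, (Finset.mem_filter.1 hg').2, hout b (Ne.symm hab)]
      · exact hout i hi
  refine (Nat.mul_le_mul_right _ key).trans (le_of_eq ?_)
  rw [Fintype.card_piFinset]
  simp only [apply_ite Finset.card, Finset.card_singleton, Finset.card_univ, Fintype.card_fin]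
  rw [Finset.prod_ite, Finset.prod_const_one, one_mul, Finset.prod_const]
  have h1 : ((univ : Finset (Fin K)).filter (fun i => ¬ i = a)).card = K - 1 := by
    rw [Finset.filter_ne' univ a, Finset.card_erase_of_mem (mem_univ _), Finset.card_univ,
      Fintype.card_fin]
  rw [h1, ← pow_succ, Nat.sub_add_cancel (Nat.succ_le_of_lt (Fin.pos a))]

/-- A progression-free subset of `[0,R)` of size about `K`, provided every pattern is rare. -/
theorem exists_alt {p : ℕ} (hp : p.Prime) (hdp : d + 2 ≤ p) (hpk : p ≤ k) {K R : ℕ} (hR : 0 < R)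
    (hK : 0 < K) (hcoll : 4 * K ≤ R)
    (hpat : ∀ π : Fin k → Fin k, (∀ i, π (π i) = π i) → 2 ≤ (reps π).card →
      4 * k ^ k * K ^ (reps π).card ≤ K * R ^ ((reps π).card - (piv d π).card)) :
    ∃ B : Finset ℤ, B ⊆ Finset.Ico (0 : ℤ) R ∧ PolyFree k d B ∧ K ≤ 2 * B.card := by
  classical
  haveI : Nonempty (Fin R) := ⟨⟨0, hR⟩⟩
  have hk0 : 0 < k := by have := hp.pos; omega
  set PI := (univ : Finset (Fin k → Fin k)).filter
    (fun π => (∀ i, π (π i) = π i) ∧ 2 ≤ (reps π).card) with hPI
  set IX : (Fin k → Fin k) → Finset (Fin k → Fin K) := fun π =>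
    univ.filter (fun idx => Set.InjOn idx (reps π) ∧ ∀ i, idx i = idx (π i)) with hIX
  set pairs := (univ : Finset (Fin K × Fin K)).filter (fun q => q.1 < q.2) with hpairs
  set cb : (Fin K → Fin R) → ℕ := fun g =>
    (∑ π ∈ PI, ((IX π).filter (fun idx => Bad d g (π, idx))).card)
      + (pairs.filter (fun q => g q.1 = g q.2)).card with hcb
  -- the average number of bad events is at most half the number of samples
  have hswap : ∀ {β : Type} [DecidableEq β] (S : Finset β) (P : (Fin K → Fin R) → β → Prop),
      ∑ g : Fin K → Fin R, (S.filter (P g)).card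
        = ∑ b ∈ S, ((univ : Finset (Fin K → Fin R)).filter (fun g => P g b)).card := by
    intro β _ S P
    simp only [Finset.card_filter]
    exact Finset.sum_comm
  have hIXcard : ∀ π : Fin k → Fin k, (∀ i, π (π i) = π i) →
      (IX π).card ≤ K ^ (reps π).card := by
    intro π hid
    have h : (IX π).card ≤ ((reps π).pi (fun _ => (univ : Finset (Fin K)))).card := by
      refine Finset.card_le_card_of_injOn (fun idx c _ => idx c) ?_ ?_
      · intro idx _; rw [Finset.mem_coe, Finset.mem_pi]; exact fun _ _ => mem_univ _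
      · intro a ha b hb hab
        funext i
        rw [(Finset.mem_filter.1 ha).2.2 i, (Finset.mem_filter.1 hb).2.2 i]
        exact congrFun (congrFun hab (π i)) (Finset.mem_image_of_mem _ (mem_univ i))
    rw [Finset.card_pi, Finset.prod_const, Finset.card_univ, Fintype.card_fin] at h
    exact h
  have hpat' : ∀ π ∈ PI, 4 * k ^ k * ∑ g : Fin K → Fin R,
      ((IX π).filter (fun idx => Bad d g (π, idx))).card ≤ K * R ^ K := by
    intro π hπ
    obtain ⟨-, hid, hs⟩ := Finset.mem_filter.1 hπ
    have hsw := hswap (IX π) (fun g idx => Bad d g (π, idx))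
    beta_reduce at hsw
    rw [hsw]
    set e := (reps π).card - (piv d π).card with he
    have h1 : (∑ idx ∈ IX π, ((univ : Finset (Fin K → Fin R)).filter
        (fun g => Bad d g (π, idx))).card) * R ^ e ≤ (IX π).card * R ^ K := by
      rw [Finset.sum_mul, ← smul_eq_mul, ← Finset.sum_const]
      exact Finset.sum_le_sum fun idx hidx =>
        card_bad_le hR (π, idx) (Finset.mem_filter.1 hidx).2.1
    refine Nat.le_of_mul_le_mul_right ?_ (pow_pos hR e)
    rw [mul_assoc]
    refine (Nat.mul_le_mul_left _ (h1.trans (Nat.mul_le_mul_right _ (hIXcard π hid)))).trans ?_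
    rw [← mul_assoc, mul_right_comm K]
    exact Nat.mul_le_mul_right _ (hpat π hid hs)
  have hA : 4 * ∑ g : Fin K → Fin R, ∑ π ∈ PI, ((IX π).filter (fun idx => Bad d g (π, idx))).card
      ≤ K * R ^ K := by
    refine Nat.le_of_mul_le_mul_left ?_ (pow_pos hk0 k)
    rw [← mul_assoc, mul_comm (k ^ k) 4, Finset.sum_comm, Finset.mul_sum]
    refine (Finset.sum_le_sum hpat').trans ?_
    rw [Finset.sum_const, smul_eq_mul]
    refine Nat.mul_le_mul_right _ ((Finset.card_le_univ _).trans (le_of_eq ?_))
    simp
  have hB' : (∑ g : Fin K → Fin R, (pairs.filter (fun q => g q.1 = g q.2)).card) * R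
      ≤ K * K * R ^ K := by
    have hsw : ∑ g : Fin K → Fin R, (pairs.filter (fun q => g q.1 = g q.2)).card
        = ∑ q ∈ pairs, ((univ : Finset (Fin K → Fin R)).filter (fun g => g q.1 = g q.2)).card := by
      simp only [Finset.card_filter]
      exact Finset.sum_comm
    rw [hsw, Finset.sum_mul]
    refine (Finset.sum_le_sum fun q hq => card_coll_le hR (Finset.mem_filter.1 hq).2.ne).trans ?_
    rw [Finset.sum_const, smul_eq_mul]
    refine Nat.mul_le_mul_right _ ((Finset.card_le_univ _).trans (le_of_eq ?_))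
    simp
  have hC : 4 * ∑ g : Fin K → Fin R, (pairs.filter (fun q => g q.1 = g q.2)).card ≤ K * R ^ K := by
    refine Nat.le_of_mul_le_mul_right ?_ hR
    calc 4 * (∑ g : Fin K → Fin R, (pairs.filter (fun q => g q.1 = g q.2)).card) * R
        ≤ 4 * (K * K * R ^ K) := by rw [mul_assoc]; exact Nat.mul_le_mul_left _ hB'
      _ = 4 * K * (K * R ^ K) := by ring
      _ ≤ R * (K * R ^ K) := Nat.mul_le_mul_right _ hcoll
      _ = K * R ^ K * R := by ring
  obtain ⟨g, -, hg⟩ := Finset.exists_le_of_sum_le (s := (univ : Finset (Fin K → Fin R)))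
    Finset.univ_nonempty (show ∑ g, 2 * cb g ≤ ∑ _g : Fin K → Fin R, K by
      rw [← Finset.mul_sum, Finset.sum_const, Finset.card_univ, Fintype.card_fun, Fintype.card_fin,
        Fintype.card_fin, smul_eq_mul]
      simp only [hcb, Finset.sum_add_distrib]
      rw [mul_comm (R ^ K) K]
      omega)
  -- delete one index for every bad event
  set z : Fin k := ⟨0, hk0⟩ with hz
  set D1 := PI.biUnion (fun π => ((IX π).filter (fun idx => Bad d g (π, idx))).image
    (fun idx => idx z)) with hD1
  set D2 := (pairs.filter (fun q => g q.1 = g q.2)).image Prod.snd with hD2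
  set G := (univ : Finset (Fin K)) \ (D1 ∪ D2) with hG
  have hinjG : Set.InjOn g G := by
    intro a ha b hb hab
    by_contra hne
    rcases lt_or_gt_of_ne hne with h | h
    · exact (Finset.mem_sdiff.1 hb).2 (Finset.mem_union_right _ (Finset.mem_image.2
        ⟨(a, b), Finset.mem_filter.2 ⟨Finset.mem_filter.2 ⟨mem_univ _, h⟩, hab⟩, rfl⟩))
    · exact (Finset.mem_sdiff.1 ha).2 (Finset.mem_union_right _ (Finset.mem_image.2
        ⟨(b, a), Finset.mem_filter.2 ⟨Finset.mem_filter.2 ⟨mem_univ _, h⟩, hab.symm⟩, rfl⟩))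
  refine ⟨G.image (fun i => ((g i).val : ℤ)), ?_, ?_, ?_⟩
  · intro b hb
    obtain ⟨i, -, rfl⟩ := Finset.mem_image.1 hb
    have := (g i).isLt
    exact Finset.mem_Ico.2 ⟨by positivity, by exact_mod_cast this⟩
  · intro f hf hmem
    by_contra hcon
    push Not at hcon
    obtain ⟨j0, hj0, hne0⟩ := hcon
    have hex : ∀ j : Fin k, ∃ a ∈ G, ((g a).val : ℤ) = f j := fun j =>
      Finset.mem_image.1 (hmem j j.isLt)
    choose idx hidxG hidx using hex
    have heq : ∀ i j : Fin k, f i = f j → idx i = idx j := fun i j h =>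
      hinjG (hidxG i) (hidxG j) (Fin.ext (by
        have h1 := hidx i; have h2 := hidx j; omega))
    set π : Fin k → Fin k := fun i =>
      ((univ : Finset (Fin k)).filter (fun j : Fin k => f j = f i)).min' ⟨i, by simp⟩ with hπ
    have hπf : ∀ i, f (π i) = f i := fun i =>
      (Finset.mem_filter.1 (Finset.min'_mem ((univ : Finset (Fin k)).filter
        (fun j : Fin k => f j = f i)) ⟨i, by simp⟩)).2
    have hid : ∀ i, π (π i) = π i := by
      intro i
      show Finset.min' _ _ = Finset.min' _ _
      simp only [hπf i]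
    have hs : 2 ≤ (reps π).card := by
      refine Finset.one_lt_card.2 ⟨π ⟨j0, hj0⟩, Finset.mem_image_of_mem _ (mem_univ _), π z,
        Finset.mem_image_of_mem _ (mem_univ _), fun h => hne0 ?_⟩
      have h1 := hπf ⟨j0, hj0⟩
      rw [h, hπf z] at h1
      exact h1.symm
    have hinj : Set.InjOn idx (reps π) := by
      intro a ha b hb hab
      obtain ⟨i, -, rfl⟩ := Finset.mem_image.1 ha
      obtain ⟨j, -, rfl⟩ := Finset.mem_image.1 hb
      have hfij : f i = f j := by
        rw [← hπf i, ← hπf j, ← hidx (π i), ← hidx (π j), hab]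
      show Finset.min' _ _ = Finset.min' _ _
      simp only [hfij]
    have hcls : ∀ i, idx i = idx (π i) := fun i => heq i (π i) (hπf i).symm
    have hbad : Bad d g (π, idx) := by
      refine ⟨hid, hs, hinj, hcls, ?_⟩
      obtain ⟨P, hP, hPe⟩ := hf
      refine ⟨P, hP, fun j hj => ?_⟩
      rw [hPe j hj]
      show (f j : ℚ) = ((if h : j < k then ((g (idx ⟨j, h⟩)).val : ℤ) else 0 : ℤ) : ℚ)
      rw [dif_pos hj, hidx ⟨j, hj⟩]
    exact (Finset.mem_sdiff.1 (hidxG z)).2 (Finset.mem_union_left _ (Finset.mem_biUnion.2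
      ⟨π, Finset.mem_filter.2 ⟨mem_univ _, hid, hs⟩, Finset.mem_image.2
        ⟨idx, Finset.mem_filter.2 ⟨Finset.mem_filter.2 ⟨mem_univ _, hinj, hcls⟩, hbad⟩, rfl⟩⟩))
  · rw [Finset.card_image_of_injOn (fun a ha b hb h => hinjG ha hb (Fin.ext (by
      exact_mod_cast h)))]
    have h1 : D1.card ≤ ∑ π ∈ PI, ((IX π).filter (fun idx => Bad d g (π, idx))).card :=
      Finset.card_biUnion_le.trans (Finset.sum_le_sum fun π _ => Finset.card_image_le)
    have h2 : D2.card ≤ (pairs.filter (fun q => g q.1 = g q.2)).card := Finset.card_image_le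
    have h3 : K ≤ G.card + (D1 ∪ D2).card := by
      have h := Finset.card_sdiff_add_card (univ : Finset (Fin K)) (D1 ∪ D2)
      rw [Finset.union_eq_left.2 (Finset.subset_univ _), Finset.card_univ, Fintype.card_fin] at h
      rw [hG, h]
    have h4 := Finset.card_union_le D1 D2
    simp only [hcb] at hg
    omega

end Vale.Agent.P057.Gen
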