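import Vale.Agent.P057.Gen.Poly

/-! Rankin's lift from degree `2 d` to degree `d`. -/

namespace Vale.Agent.P057.Gen

open Finset Polynomial

/-- The value of a digit vector in base `M`. -/
def num (M : ℤ) {m : ℕ} (v : Fin m → ℤ) : ℤ := ∑ i, v i * M ^ (i : ℕ)

theorem num_succ {M : ℤ} {m : ℕ} (e : Fin (m + 1) → ℤ) :
    num M e = e 0 + M * num M (fun i => e i.succ) := by
  simp only [num, Fin.sum_univ_succ, Finset.mul_sum, Fin.val_zero, pow_zero, mul_one,
    Fin.val_succ, pow_succ]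
  congr 1
  exact Finset.sum_congr rfl fun i _ => by ring

theorem num_zero_imp {M : ℤ} : ∀ {m : ℕ} (e : Fin m → ℤ),
    (∀ i, |e i| < M) → num M e = 0 → ∀ i, e i = 0
  | 0, _, _, _ => fun i => i.elim0
  | m + 1, e, hb, h => by
    have hs := num_succ (M := M) e
    have h0 : e 0 = 0 := by
      by_contra hne
      have hdvd : M ∣ e 0 := ⟨-num M (fun i => e i.succ), by linarith⟩
      have := Int.le_of_dvd (abs_pos.2 hne) ((dvd_abs _ _).2 hdvd)
      linarith [hb 0]
    have hM : 0 < M := lt_of_le_of_lt (abs_nonneg _) (hb 0)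
    have hrest : num M (fun i => e i.succ) = 0 := by
      rw [hs, h0, zero_add] at h
      exact (mul_eq_zero.1 h).resolve_left hM.ne'
    intro i
    refine Fin.cases h0 (fun l => ?_) i
    exact num_zero_imp (fun i => e i.succ) (fun i => hb i.succ) hrest l

theorem num_sum {M : ℤ} {m : ℕ} {ι : Type*} (s : Finset ι) (c : ι → ℤ) (v : ι → Fin m → ℤ) :
    num M (fun i => ∑ l ∈ s, c l * v l i) = ∑ l ∈ s, c l * num M (v l) := by
  simp only [num, Finset.sum_mul, Finset.mul_sum]
  rw [Finset.sum_comm]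
  exact Finset.sum_congr rfl fun l _ => Finset.sum_congr rfl fun i _ => by ring

theorem num_nonneg {M : ℤ} (hM : 0 ≤ M) {m : ℕ} (v : Fin m → ℤ) (hv : ∀ i, 0 ≤ v i) :
    0 ≤ num M v :=
  Finset.sum_nonneg fun i _ => mul_nonneg (hv i) (pow_nonneg hM _)

theorem num_lt {M : ℤ} (hM : 0 < M) : ∀ {m : ℕ} (v : Fin m → ℤ),
    (∀ i, 0 ≤ v i ∧ v i < M) → num M v < M ^ m
  | 0, _, _ => by simp [num]
  | m + 1, v, hv => by
    have ih := num_lt hM (fun i => v i.succ) (fun i => hv i.succ)
    rw [num_succ v, pow_succ']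
    have : M * num M (fun i => v i.succ) + M ≤ M * M ^ m := by
      calc M * num M (fun i => v i.succ) + M = M * (num M (fun i => v i.succ) + 1) := by ring
        _ ≤ M * M ^ m := mul_le_mul_of_nonneg_left (by omega) hM.le
    linarith [(hv 0).2]

/-- Digit vectors with entries below `w`. -/
noncomputable def box (m w : ℕ) : Finset (Fin m → ℤ) :=
  Fintype.piFinset fun _ => Finset.Ico 0 (w : ℤ)

theorem card_box (m w : ℕ) : (box m w).card = w ^ m := by simp [box]

theorem mem_box {m w : ℕ} {v : Fin m → ℤ} (h : v ∈ box m w) (i : Fin m) : 0 ≤ v i ∧ v i < w :=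
  Finset.mem_Ico.1 (Fintype.mem_piFinset.1 h i)

theorem num_injOn (m w : ℕ) (M : ℤ) (hM : (w : ℤ) ≤ M) :
    Set.InjOn (num M : (Fin m → ℤ) → ℤ) (box m w) := by
  intro u hu v hv h
  funext i
  have h2 := num_zero_imp (M := M) (fun i => u i - v i)
    (fun i => by
      have := mem_box hu i
      have := mem_box hv i
      rw [abs_lt]; constructor <;> omega)
    (by
      simp only [num, sub_mul, Finset.sum_sub_distrib] at h ⊢
      omega) i
  omega

/-- Some translate of `B` meets the squared lengths of a proportion `|B| / 2R` of the box. -/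
theorem exists_shift (m w R : ℕ) (hR : 0 < R) (hmw : m * w ^ 2 ≤ R) (B : Finset ℤ)
    (hB : B ⊆ Finset.Ico (0 : ℤ) R) :
    ∃ t : ℤ, B.card * w ^ m
      ≤ 2 * R * ((box m w).filter (fun v => (∑ i, v i ^ 2) + t ∈ B)).card := by
  classical
  let I : Finset ℤ := Finset.Ico (-(R : ℤ)) (R : ℤ)
  have hI : I.Nonempty := ⟨0, Finset.mem_Ico.2 ⟨by omega, by omega⟩⟩
  obtain ⟨t, -, ht⟩ := Finset.exists_max_image I
    (fun t => ((box m w).filter (fun v => (∑ i, v i ^ 2) + t ∈ B)).card) hI
  refine ⟨t, ?_⟩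
  have key : ∀ v ∈ box m w, B.card ≤ (I.filter (fun t => (∑ i, v i ^ 2) + t ∈ B)).card := by
    intro v hv
    have hlo : 0 ≤ ∑ i, v i ^ 2 := Finset.sum_nonneg fun i _ => sq_nonneg _
    have hhi : ∑ i, v i ^ 2 ≤ (R : ℤ) := by
      calc ∑ i, v i ^ 2 ≤ ∑ _i : Fin m, (w : ℤ) ^ 2 :=
            Finset.sum_le_sum fun i _ => pow_le_pow_left₀ (mem_box hv i).1 (mem_box hv i).2.le 2
        _ = ((m * w ^ 2 : ℕ) : ℤ) := by simp
        _ ≤ R := by exact_mod_cast hmw
    refine Finset.card_le_card_of_injOn (fun b => b - ∑ i, v i ^ 2) ?_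
      (fun a _ b _ h => by simpa using h)
    intro b hb
    have := Finset.mem_Ico.1 (hB hb)
    refine Finset.mem_filter.2 ⟨Finset.mem_Ico.2 ⟨by dsimp only; omega, by dsimp only; omega⟩, ?_⟩
    simpa using hb
  have h1 : B.card * w ^ m
      ≤ ∑ s ∈ I, ((box m w).filter (fun v => (∑ i, v i ^ 2) + s ∈ B)).card := by
    calc B.card * w ^ m = ∑ _v ∈ box m w, B.card := by
          rw [Finset.sum_const, card_box, smul_eq_mul, mul_comm]
      _ ≤ ∑ v ∈ box m w, (I.filter (fun t => (∑ i, v i ^ 2) + t ∈ B)).card := Finset.sum_le_sum key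
      _ = _ := by
          simp only [Finset.card_filter]
          exact Finset.sum_comm
  refine h1.trans ((Finset.sum_le_sum ht).trans (le_of_eq ?_))
  rw [Finset.sum_const, smul_eq_mul]
  congr 1
  simp [I]; omega

theorem abs_dsum_lt {d w : ℕ} {f : ℕ → ℤ} {j : ℕ}
    (h : ∀ i ≤ d + 1, 0 ≤ f (j + i) ∧ f (j + i) < w) : |dsum (d + 1) f j| < 2 ^ d * w := by
  have hc : ∑ i ∈ range (d + 1 + 1), ((-1 : ℤ) ^ (d + 1 - i) * (d + 1).choose i) = 0 := by
    have h0 : dsum (d + 1) (fun _ => 1) j = 0 := by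
      refine PolySeq.dsum_zero (k := j + (d + 1) + 1) (d := 0) ⟨1, by simp, fun i _ => by simp⟩
        (by omega) (by omega)
    simpa [dsum] using h0
  have h2 : 2 * dsum (d + 1) f j = ∑ i ∈ range (d + 1 + 1),
      ((-1 : ℤ) ^ (d + 1 - i) * (d + 1).choose i) * (2 * f (j + i) - ((w : ℤ) - 1)) := by
    have h1 : ∀ i ∈ range (d + 1 + 1),
        ((-1 : ℤ) ^ (d + 1 - i) * (d + 1).choose i) * (2 * f (j + i) - ((w : ℤ) - 1))
          = 2 * (((-1 : ℤ) ^ (d + 1 - i) * (d + 1).choose i) * f (j + i))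
            - ((-1 : ℤ) ^ (d + 1 - i) * (d + 1).choose i) * ((w : ℤ) - 1) := fun i _ => by ring
    rw [Finset.sum_congr rfl h1, Finset.sum_sub_distrib, ← Finset.sum_mul, hc, zero_mul, sub_zero,
      dsum, Finset.mul_sum]
  have h3 : |2 * dsum (d + 1) f j|
      ≤ ∑ i ∈ range (d + 1 + 1), ((d + 1).choose i : ℤ) * ((w : ℤ) - 1) := by
    rw [h2]
    refine (Finset.abs_sum_le_sum_abs _ _).trans (Finset.sum_le_sum fun i hi => ?_)
    rw [mem_range] at hi
    rw [abs_mul, abs_mul, abs_pow, abs_neg, abs_one, one_pow, one_mul, Nat.abs_cast]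
    refine mul_le_mul_of_nonneg_left ?_ (Nat.cast_nonneg _)
    have := h i (by omega)
    rw [abs_le]; constructor <;> omega
  have h4 : ∑ i ∈ range (d + 1 + 1), ((d + 1).choose i : ℤ) = 2 * 2 ^ d := by
    rw [← Nat.cast_sum, Nat.sum_range_choose]; push_cast; ring
  rw [← Finset.sum_mul, h4, abs_mul, abs_two] at h3
  have : (0 : ℤ) < 2 ^ d := by positivity
  nlinarith [abs_nonneg (dsum (d + 1) f j)]

/-- A sum of squares of polynomials which is constant at enough points has constant terms. -/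
theorem const_of_sq_sum {m k d : ℕ} (hk : 2 * d < k) (P : Fin m → ℚ[X])
    (hP : ∀ i, (P i).natDegree ≤ d) (c : ℚ)
    (h : ∀ j < k, ∑ i, (P i).eval (j : ℚ) ^ 2 = c) : ∀ i, (P i).natDegree = 0 := by
  classical
  have hQ : (∑ i, P i ^ 2) - Polynomial.C c = 0 := by
    refine eq_zero_of_natDegree_lt_card_of_eval_eq_zero' _
      ((range k).image (fun i : ℕ => (i : ℚ))) ?_ ?_
    · intro x hx
      obtain ⟨i, hi, rfl⟩ := Finset.mem_image.1 hx
      rw [mem_range] at hi
      simp [eval_finsetSum, h i hi]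
    · rw [Finset.card_image_of_injective _ Nat.cast_injective, card_range]
      refine lt_of_le_of_lt ((natDegree_sub_le _ _).trans (max_le ?_ ?_)) hk
      · refine natDegree_sum_le_of_forall_le _ _ fun i _ => natDegree_pow_le.trans ?_
        have := hP i; omega
      · simp
  rw [sub_eq_zero] at hQ
  by_contra hcon
  push Not at hcon
  obtain ⟨i0, hi0⟩ := hcon
  obtain ⟨i1, -, hmax⟩ := Finset.exists_max_image univ (fun i => (P i).natDegree) ⟨i0, mem_univ _⟩
  set e := (P i1).natDegree with he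
  have he0 : 0 < e := by have := hmax i0 (mem_univ _); omega
  have hcoef := congrArg (fun Q => Q.coeff (e + e)) hQ
  simp only [finsetSum_coeff, pow_two, coeff_C, show e + e ≠ 0 by omega, if_false] at hcoef
  have hterm : ∀ i, (P i * P i).coeff (e + e) = (P i).coeff e ^ 2 := fun i => by
    rw [coeff_mul_add_eq_of_natDegree_le (hmax i (mem_univ _)) (hmax i (mem_univ _)), pow_two]
  simp only [hterm] at hcoef
  have := (Finset.sum_eq_zero_iff_of_nonneg fun i _ => sq_nonneg _).1 hcoef i1 (mem_univ _)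
  have hz : (P i1).coeff e = 0 := pow_eq_zero_iff (two_ne_zero) |>.1 this
  have : P i1 = 0 := leadingCoeff_eq_zero.1 (by rw [leadingCoeff, ← he]; exact hz)
  rw [this, natDegree_zero] at he
  omega

/-- One lift. -/
theorem lift {k d m w R : ℕ} (hk : 2 * d < k) (hw : 0 < w) (hR : 0 < R)
    (hmw : m * w ^ 2 ≤ R) (C : Finset ℤ) (hC : C ⊆ Finset.Ico (0 : ℤ) R)
    (hCf : PolyFree k (2 * d) C) :
    ∃ A : Finset ℤ, A ⊆ Finset.Ico (0 : ℤ) (((2 ^ d * w) ^ m : ℕ) : ℤ) ∧ PolyFree k d A ∧
      C.card * w ^ m ≤ 2 * R * A.card := by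
  classical
  obtain ⟨t, ht⟩ := exists_shift m w R hR hmw C hC
  set Y := (box m w).filter (fun v => (∑ i, v i ^ 2) + t ∈ C) with hY
  set M : ℤ := ((2 ^ d * w : ℕ) : ℤ) with hM
  have hwM : (w : ℤ) ≤ M := by
    rw [hM]; exact_mod_cast Nat.le_mul_of_pos_left w (by positivity)
  have hM0 : 0 < M := by omega
  refine ⟨Y.image (num M), ?_, ?_, ?_⟩
  · intro a ha
    obtain ⟨v, hv, rfl⟩ := Finset.mem_image.1 ha
    have hv' := mem_box (Finset.mem_filter.1 hv).1
    refine Finset.mem_Ico.2 ⟨num_nonneg hM0.le v (fun i => (hv' i).1), ?_⟩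
    refine lt_of_lt_of_eq (num_lt hM0 v fun i => ⟨(hv' i).1, by have := hv' i; omega⟩) ?_
    rw [hM]; push_cast; rfl
  · intro f hf hmem
    have hex : ∀ j, j < k → ∃ v ∈ Y, num M v = f j := fun j hj => Finset.mem_image.1 (hmem j hj)
    choose! V hV using hex
    have hbox : ∀ j < k, ∀ i, 0 ≤ V j i ∧ V j i < w := fun j hj i =>
      mem_box (Finset.mem_filter.1 (hV j hj).1).1 i
    have hpoly : ∀ i, PolySeq k d (fun j => V j i) := by
      intro i
      refine PolySeq.of_dsum fun j hj => ?_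
      refine num_zero_imp (M := M) (fun i => dsum (d + 1) (fun j => V j i) j) (fun i => ?_) ?_ i
      · rw [hM]; push_cast
        exact abs_dsum_lt fun l hl => hbox (j + l) (by omega) i
      · simp only [dsum]
        rw [num_sum]
        refine Eq.trans (Finset.sum_congr rfl fun l hl => ?_) (hf.dsum_zero (Nat.lt_succ_self d) hj)
        rw [mem_range] at hl
        rw [(hV (j + l) (by omega)).2]
    choose P hPd hPe using hpoly
    have hg : PolySeq k (2 * d) (fun j => (∑ i, V j i ^ 2) + t) := by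
      refine ⟨(∑ i, P i ^ 2) + Polynomial.C (t : ℚ), ?_, fun j hj => ?_⟩
      · refine (natDegree_add_le _ _).trans (max_le ?_ (by simp))
        refine natDegree_sum_le_of_forall_le _ _ fun i _ => natDegree_pow_le.trans ?_
        have := hPd i; omega
      · simp [eval_finsetSum, hPe _ j hj]
    have hc := hCf _ hg (fun j hj => (Finset.mem_filter.1 (hV j hj).1).2)
    have hS : ∀ j < k, ∑ i, (P i).eval (j : ℚ) ^ 2 = ((∑ i, V 0 i ^ 2 : ℤ) : ℚ) := by
      intro j hj
      have h1 := hc j hj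
      have h2 : ∑ i, V j i ^ 2 = ∑ i, V 0 i ^ 2 := by linarith
      rw [← h2]
      push_cast
      exact Finset.sum_congr rfl fun i _ => by rw [hPe i j hj]
    have hdeg := const_of_sq_sum hk P hPd _ hS
    intro j hj
    have hv : V j = V 0 := by
      funext i
      have h1 := hPe i j hj
      have h2 := hPe i 0 (by omega)
      rw [eq_C_of_natDegree_eq_zero (hdeg i), eval_C] at h1 h2
      exact_mod_cast h1.symm.trans h2
    rw [← (hV j hj).2, ← (hV 0 (by omega)).2, hv]
  · rw [Finset.card_image_of_injOn ((num_injOn m w M hwM).mono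
      (Finset.coe_subset.2 (Finset.filter_subset _ _)))]
    exact ht

end Vale.Agent.P057.Gen
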