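import Vale.Agent.P057.Gen.Lift
import Vale.Agent.P057.Gen.Alt

/-! The Rankin tower with a random-deletion innermost set. -/

namespace Vale.Agent.P057.Gen

open Filter Finset Real Topology

/-- For every `ε > 0` there are, for all large `N`, degree-`d` free subsets of `[0,N)` of density
at least `2 ^ (-(A + ε) (log₂ N) ^ (1/r))`. -/
def Good (k d r : ℕ) (A : ℝ) : Prop :=
  ∀ ε : ℝ, 0 < ε → ∀ᶠ N : ℕ in atTop, ∃ C : Finset ℤ, C ⊆ Finset.Ico (0 : ℤ) N ∧
    PolyFree k d C ∧ C.Nonempty ∧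
    Real.logb 2 N - (A + ε) * (Real.logb 2 N) ^ ((1 : ℝ) / r) ≤ Real.logb 2 C.card

theorem tendsto_logb_nat : Tendsto (fun N : ℕ => Real.logb 2 N) atTop atTop :=
  (Real.tendsto_logb_atTop one_lt_two).comp tendsto_natCast_atTop_atTop

theorem good_base {k d p : ℕ} (hp : p.Prime) (hdp : d + 2 ≤ p) (hpk : p ≤ k) :
    Good k d 1 (2 * (d : ℝ) / (k + d)) := by
  intro ε hε
  set α : ℝ := 2 * (d : ℝ) / (k + d) with hα
  set c : ℝ := 1 / (4 * (k : ℝ) ^ k + 4) with hc
  have hk0 : (0 : ℝ) < k := by exact_mod_cast hp.pos.trans_le hpk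
  have hkd : (0 : ℝ) < (k : ℝ) + d := by positivity
  have hα0 : 0 ≤ α := by positivity
  have hα1 : α < 1 := by
    rw [hα, div_lt_one hkd]
    have : (d : ℝ) < k := by exact_mod_cast (show d < k by omega)
    linarith
  have hc0 : 0 < c := by positivity
  have hc4 : 4 * (k : ℝ) ^ k * c ≤ 1 := by
    rw [hc, mul_one_div, div_le_one (by positivity)]; linarith
  have hc1 : 4 * c ≤ 1 := by
    rw [hc, mul_one_div, div_le_one (by positivity)]
    linarith [pow_nonneg hk0.le k]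
  filter_upwards [eventually_ge_atTop 1,
    ((tendsto_rpow_atTop (sub_pos.2 hα1)).comp tendsto_natCast_atTop_atTop).eventually_ge_atTop
      (2 / c),
    tendsto_logb_nat.eventually_ge_atTop (-Real.logb 2 (c / 4) / ε)] with N hN hbigN hbig
  simp only [Function.comp_apply] at hbigN
  rw [div_le_iff₀ hc0] at hbigN
  set K := ⌊c * (N : ℝ) ^ (1 - α)⌋₊ with hK
  have hN1 : (1 : ℝ) ≤ N := by exact_mod_cast hN
  have hM0 : 0 < (N : ℝ) ^ (1 - α) := Real.rpow_pos_of_pos (by linarith) _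
  have hKle : (K : ℝ) ≤ c * (N : ℝ) ^ (1 - α) := Nat.floor_le (by positivity)
  have hKge : c * (N : ℝ) ^ (1 - α) ≤ 2 * (K : ℝ) := by
    have := Nat.lt_floor_add_one (c * (N : ℝ) ^ (1 - α))
    rw [← hK] at this
    linarith
  have hK0 : 0 < K := by
    rw [hK, Nat.floor_pos]; linarith
  have hMN : (N : ℝ) ^ (1 - α) ≤ N := by
    conv_rhs => rw [← Real.rpow_one (N : ℝ)]
    exact Real.rpow_le_rpow_of_exponent_le hN1 (by linarith)
  have hcoll : 4 * K ≤ N := by
    have : (4 * K : ℝ) ≤ N := by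
      have := mul_le_mul_of_nonneg_right hc1 hM0.le
      linarith
    exact_mod_cast this
  have hpat : ∀ σ : Fin k → Fin k, (∀ i, σ (σ i) = σ i) → 2 ≤ (reps σ).card →
      4 * k ^ k * K ^ (reps σ).card ≤ K * N ^ ((reps σ).card - (piv d σ).card) := by
    intro σ hid hs
    obtain ⟨hr1, -, hr3⟩ := card_piv hp hdp hpk hid hs
    obtain ⟨s, hsdef⟩ : ∃ s, (reps σ).card = s := ⟨_, rfl⟩
    obtain ⟨r, hrdef⟩ : ∃ r, (piv d σ).card = r := ⟨_, rfl⟩
    rw [hsdef, hrdef] at hr1 hr3 ⊢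
    rw [hsdef] at hs
    have hnat : (r - 1) * (k + d) ≤ 2 * d * (s - 1) := by
      have h4 := Nat.mul_le_mul_right d (show r - 1 ≤ s - 2 by omega)
      have h5 : 2 * d * (s - 1) = s * d + (s - 2) * d := by
        obtain ⟨u, rfl⟩ : ∃ u, s = u + 2 := ⟨s - 2, by omega⟩
        simp only [Nat.add_sub_cancel, show u + 2 - 1 = u + 1 by omega]
        ring
      rw [h5, Nat.mul_add]
      omega
    have hexp : (1 - α) * ((s - 1 : ℕ) : ℝ) ≤ ((s - r : ℕ) : ℝ) := by
      have h6 : ((r - 1 : ℕ) : ℝ) ≤ α * ((s - 1 : ℕ) : ℝ) := by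
        rw [hα, div_mul_eq_mul_div, le_div_iff₀ hkd]
        exact_mod_cast hnat
      have h7 : ((s - 1 : ℕ) : ℝ) ≤ ((r - 1 : ℕ) : ℝ) + ((s - r : ℕ) : ℝ) := by
        exact_mod_cast (show s - 1 ≤ (r - 1) + (s - r) by omega)
      linarith
    have hreal : 4 * (k : ℝ) ^ k * (K : ℝ) ^ (s - 1) ≤ (N : ℝ) ^ (s - r) := by
      calc 4 * (k : ℝ) ^ k * (K : ℝ) ^ (s - 1)
          ≤ 4 * (k : ℝ) ^ k * (c ^ (s - 1) * ((N : ℝ) ^ (1 - α)) ^ (s - 1)) := by
            rw [← mul_pow]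
            exact mul_le_mul_of_nonneg_left (pow_le_pow_left₀ (by positivity) hKle _)
              (by positivity)
        _ ≤ 4 * (k : ℝ) ^ k * (c * ((N : ℝ) ^ (1 - α)) ^ (s - 1)) := by
            refine mul_le_mul_of_nonneg_left (mul_le_mul_of_nonneg_right ?_ (by positivity))
              (by positivity)
            exact pow_le_of_le_one hc0.le (by linarith) (by omega)
        _ ≤ 1 * ((N : ℝ) ^ (1 - α)) ^ (s - 1) := by
            rw [← mul_assoc]
            exact mul_le_mul_of_nonneg_right hc4 (by positivity)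
        _ = (N : ℝ) ^ ((1 - α) * ((s - 1 : ℕ) : ℝ)) := by
            rw [one_mul, Real.rpow_mul (by linarith), Real.rpow_natCast]
        _ ≤ (N : ℝ) ^ ((s - r : ℕ) : ℝ) := Real.rpow_le_rpow_of_exponent_le hN1 hexp
        _ = (N : ℝ) ^ (s - r) := Real.rpow_natCast _ _
    have hnat2 : 4 * k ^ k * K ^ (s - 1) ≤ N ^ (s - r) := by exact_mod_cast hreal
    calc 4 * k ^ k * K ^ s = K * (4 * k ^ k * K ^ (s - 1)) := by
          conv_lhs => rw [show s = (s - 1) + 1 by omega, pow_succ]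
          ring
      _ ≤ K * N ^ (s - r) := Nat.mul_le_mul_left _ hnat2
  obtain ⟨B, hBs, hBf, hBc⟩ := exists_alt (R := N) hp hdp hpk hN hK0 hcoll hpat
  have hB0 : 0 < B.card := by omega
  refine ⟨B, hBs, hBf, Finset.card_pos.1 hB0, ?_⟩
  have hBR : (0 : ℝ) < B.card := by exact_mod_cast hB0
  have h2 : (K : ℝ) ≤ 2 * (B.card : ℝ) := by exact_mod_cast hBc
  have hle : Real.logb 2 (c / 4 * (N : ℝ) ^ (1 - α)) ≤ Real.logb 2 B.card :=
    Real.logb_le_logb_of_le one_lt_two (by positivity) (by linarith)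
  rw [Real.logb_mul (by positivity) hM0.ne', Real.logb_rpow_eq_mul_logb_of_pos (by linarith)]
    at hle
  rw [div_le_iff₀ hε] at hbig
  rw [Nat.cast_one, div_one, Real.rpow_one]
  linarith

/-- One step of the tower, with free parameter `x`. -/
theorem good_step {k d r : ℕ} (hk : 2 * d < k) (hr : 1 ≤ r) {A : ℝ} (hA : 0 ≤ A)
    (h : Good k (2 * d) r A) {x : ℝ} (hx : 0 < x) :
    Good k d (r + 1) ((d : ℝ) * x + A * (2 / x) ^ ((1 : ℝ) / r)) := by
  intro ε hε
  obtain ⟨η, hη, hval⟩ : ∃ η : ℝ, 0 < η ∧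
      ((d : ℝ) + η) * x + 2 * η + (A + η) * (2 / x + η) ^ ((1 : ℝ) / r)
        < (d : ℝ) * x + A * (2 / x) ^ ((1 : ℝ) / r) + ε := by
    have hc : ContinuousAt (fun η : ℝ =>
        ((d : ℝ) + η) * x + 2 * η + (A + η) * (2 / x + η) ^ ((1 : ℝ) / r)) 0 := by
      have : ContinuousAt (fun η : ℝ => (2 / x + η) ^ ((1 : ℝ) / r)) 0 :=
        ((continuous_const.add continuous_id).continuousAt).rpow_const (Or.inr (by positivity))
      fun_prop
    have hlt := hc.eventually (eventually_lt_nhds (b := (d : ℝ) * x +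
      A * (2 / x) ^ ((1 : ℝ) / r) + ε) (by simpa using hε))
    obtain ⟨η, hη1, hη2⟩ := ((hlt.filter_mono nhdsWithin_le_nhds).and
      (self_mem_nhdsWithin : ∀ᶠ η in 𝓝[>] (0 : ℝ), η ∈ Set.Ioi 0)).exists
    exact ⟨η, hη2, hη1⟩
  set T : ℕ → ℝ := fun N => Real.logb 2 N with hT
  set s : ℕ → ℝ := fun N => T N ^ ((1 : ℝ) / ((r : ℝ) + 1)) with hs
  set m : ℕ → ℕ := fun N => ⌈x * s N⌉₊ with hm
  set P : ℕ → ℝ := fun N => (2 : ℝ) ^ (T N / (m N : ℝ)) / 2 ^ d with hP
  set w : ℕ → ℕ := fun N => ⌊P N⌋₊ with hw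
  have hr0 : (0 : ℝ) < r := by exact_mod_cast hr
  have hTtop : Tendsto T atTop atTop := tendsto_logb_nat
  have hstop : Tendsto s atTop atTop := (tendsto_rpow_atTop (by positivity)).comp hTtop
  have hmlo : ∀ N, x * s N ≤ (m N : ℝ) := fun N => Nat.le_ceil _
  have hpow : ∀ᶠ N in atTop, s N * s N ^ r = T N := by
    filter_upwards [hTtop.eventually_ge_atTop 0] with N hN
    rw [← pow_succ', hs]
    show (T N ^ ((1 : ℝ) / ((r : ℝ) + 1))) ^ (r + 1) = T N
    rw [← Real.rpow_natCast, ← Real.rpow_mul hN]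
    push_cast
    rw [div_mul_cancel₀ _ (by positivity), Real.rpow_one]
  -- the block length is at most `(x + 1) s`, so `T / m` tends to infinity
  have hmhi : ∀ᶠ N in atTop, (m N : ℝ) ≤ (x + 1) * s N := by
    filter_upwards [hstop.eventually_ge_atTop 1] with N h1
    have := (Nat.ceil_lt_add_one (mul_nonneg hx.le (zero_le_one.trans h1))).le
    linarith
  have hTm : Tendsto (fun N => T N / (m N : ℝ)) atTop atTop := by
    refine tendsto_atTop_mono' _ ?_ (((tendsto_pow_atTop (by omega : r ≠ 0)).comp hstop).atTop_div_const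
      (show 0 < x + 1 by linarith))
    filter_upwards [hpow, hmhi, hstop.eventually_ge_atTop 1] with N h1 h2 h3
    have hm0 : (0 : ℝ) < m N := lt_of_lt_of_le (by positivity) (hmlo N)
    simp only [Function.comp_apply]
    rw [div_le_div_iff₀ (by linarith) hm0]
    calc s N ^ r * (m N : ℝ) ≤ s N ^ r * ((x + 1) * s N) :=
          mul_le_mul_of_nonneg_left h2 (by positivity)
      _ = T N * (x + 1) := by rw [← h1]; ring
  have hPtop : Tendsto P atTop atTop :=
    ((tendsto_rpow_atTop_of_base_gt_one (2 : ℝ) one_lt_two).comp hTm).atTop_div_const (by positivity)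
  have hwtop : Tendsto w atTop atTop := tendsto_nat_floor_atTop.comp hPtop
  have hmpos : ∀ᶠ N in atTop, 1 ≤ m N := by
    filter_upwards [hstop.eventually_gt_atTop 0] with N h0
    exact Nat.ceil_pos.2 (mul_pos hx h0)
  have hRtop : Tendsto (fun N => m N * w N ^ 2) atTop atTop := by
    refine tendsto_atTop_mono' _ ?_ hwtop
    filter_upwards [hmpos] with N h1
    calc w N ≤ w N ^ 2 := Nat.le_self_pow two_ne_zero _
      _ = 1 * w N ^ 2 := (one_mul _).symm
      _ ≤ m N * w N ^ 2 := Nat.mul_le_mul_right _ h1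
  have hlogs : ∀ᶠ t : ℝ in atTop, Real.logb 2 ((x + 1) * t) ≤ η * t := by
    have hb := Real.isLittleO_log_id_atTop.bound (show 0 < η / 2 * Real.log 2 by positivity)
    filter_upwards [hb, eventually_ge_atTop (1 : ℝ),
      eventually_ge_atTop (2 * Real.logb 2 (x + 1) / η)] with t ht h1 h2
    rw [Real.norm_eq_abs, Real.norm_eq_abs, id, abs_of_nonneg (by linarith : (0 : ℝ) ≤ t),
      abs_of_nonneg (Real.log_nonneg h1)] at ht
    rw [Real.logb_mul (by linarith) (by linarith)]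
    rw [div_le_iff₀ hη] at h2
    have : Real.logb 2 t ≤ η / 2 * t := by
      rw [Real.logb, div_le_iff₀ (Real.log_pos one_lt_two)]
      linarith
    linarith
  filter_upwards [hRtop.eventually (h η hη), hpow, hmhi, hmpos, hwtop.eventually_ge_atTop 1,
    hstop.eventually hlogs, hstop.eventually_ge_atTop 1,
    hstop.eventually_ge_atTop (((d : ℝ) + η) / η), hstop.eventually_ge_atTop (1 / η),
    hPtop.eventually_ge_atTop (1 / (1 - (2 : ℝ) ^ (-η))), eventually_ge_atTop 1]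
    with N hC hpw hmh hm1 hw1 hlg hs1 hs2 hs3 hPbig hN
  obtain ⟨C, hCs, hCf, hCne, hCc⟩ := hC
  have hR0 : 0 < m N * w N ^ 2 := Nat.mul_pos hm1 (pow_pos hw1 2)
  obtain ⟨Aset, hAs, hAf, hAc⟩ := lift hk hw1 hR0 le_rfl C hCs hCf
  have hN0 : (0 : ℝ) < N := by exact_mod_cast hN
  have hNT : (2 : ℝ) ^ T N = N := Real.rpow_logb two_pos (by norm_num) hN0
  have hT0 : 0 ≤ T N := Real.logb_nonneg one_lt_two (by exact_mod_cast hN)
  have hmR : (0 : ℝ) < m N := by exact_mod_cast hm1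
  have hwR : (0 : ℝ) < w N := by exact_mod_cast hw1
  have hP0 : 0 < P N := by simp only [hP]; positivity
  have hwhi : (w N : ℝ) ≤ P N := Nat.floor_le hP0.le
  have hbox : (2 ^ d * w N) ^ m N ≤ N := by
    have : ((2 : ℝ) ^ d * (w N : ℝ)) ^ m N ≤ N := by
      calc ((2 : ℝ) ^ d * (w N : ℝ)) ^ m N ≤ ((2 : ℝ) ^ (T N / (m N : ℝ))) ^ m N := by
            refine pow_le_pow_left₀ (by positivity) ?_ _
            have := mul_le_mul_of_nonneg_left hwhi (show (0 : ℝ) ≤ 2 ^ d by positivity)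
            refine this.trans (le_of_eq ?_)
            simp only [hP]
            field_simp
        _ = N := by
            rw [← Real.rpow_mul_natCast two_pos.le, div_mul_cancel₀ _ hmR.ne', hNT]
    exact_mod_cast this
  have hCpos : 0 < C.card := hCne.card_pos
  have hApos : 0 < Aset.card := by
    rcases Nat.eq_zero_or_pos Aset.card with h | h
    · rw [h, Nat.mul_zero] at hAc
      have : 0 < C.card * w N ^ m N := Nat.mul_pos hCpos (pow_pos hw1 _)
      omega
    · exact h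
  refine ⟨Aset, hAs.trans (Finset.Ico_subset_Ico_right (by exact_mod_cast hbox)), hAf,
    Finset.card_pos.1 hApos, ?_⟩
  have hCR : (0 : ℝ) < C.card := by exact_mod_cast hCpos
  have hAR : (0 : ℝ) < Aset.card := by exact_mod_cast hApos
  have e2 : Real.logb 2 2 = 1 := Real.logb_self_eq_one one_lt_two
  set LR := Real.logb 2 (((m N * w N ^ 2 : ℕ) : ℝ)) with hLR
  have l1 : Real.logb 2 ((C.card : ℝ) * (w N : ℝ) ^ m N)
      ≤ Real.logb 2 (2 * ((m N * w N ^ 2 : ℕ) : ℝ) * Aset.card) :=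
    Real.logb_le_logb_of_le one_lt_two (by positivity) (by exact_mod_cast hAc)
  rw [Real.logb_mul (by positivity) (by positivity), Real.logb_pow,
    Real.logb_mul (by positivity) hAR.ne', Real.logb_mul (by norm_num) (by positivity), e2] at l1
  -- `log w`
  have lwhi : Real.logb 2 (w N : ℝ) ≤ T N / (m N : ℝ) := by
    rw [Real.logb_le_iff_le_rpow one_lt_two hwR]
    refine hwhi.trans (div_le_self (by positivity) ?_)
    exact one_le_pow₀ one_le_two
  have lwlo : T N / (m N : ℝ) - d - η ≤ Real.logb 2 (w N : ℝ) := by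
    rw [Real.le_logb_iff_rpow_le one_lt_two hwR]
    refine le_trans ?_ (Nat.sub_one_lt_floor (P N)).le
    have he : (2 : ℝ) ^ (T N / (m N : ℝ) - d - η) = P N * (2 : ℝ) ^ (-η) := by
      simp only [hP]
      rw [sub_eq_add_neg _ η, Real.rpow_add two_pos, Real.rpow_sub two_pos, Real.rpow_natCast]
    rw [he]
    have hlt : (2 : ℝ) ^ (-η) < 1 := Real.rpow_lt_one_of_one_lt_of_neg one_lt_two (by linarith)
    rw [div_le_iff₀ (by linarith)] at hPbig
    linarith
  have lmh : Real.logb 2 (m N : ℝ) ≤ η * s N :=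
    (Real.logb_le_logb_of_le one_lt_two hmR hmh).trans hlg
  have hsr : s N ≤ s N ^ r := le_self_pow₀ hs1 (by omega)
  have hmul : T N / (m N : ℝ) ≤ s N ^ r / x := by
    rw [div_le_div_iff₀ hmR hx]
    calc T N * x = s N ^ r * (x * s N) := by rw [← hpw]; ring
      _ ≤ s N ^ r * (m N : ℝ) := mul_le_mul_of_nonneg_left (hmlo N) (by positivity)
  have hLR' : LR ≤ (2 / x + η) * s N ^ r := by
    have e1 : LR = Real.logb 2 (m N : ℝ) + 2 * Real.logb 2 (w N : ℝ) := by
      rw [hLR]; push_cast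
      rw [Real.logb_mul hmR.ne' (by positivity), Real.logb_pow]; norm_num
    have e3 : (2 / x + η) * s N ^ r = 2 * (s N ^ r / x) + η * s N ^ r := by ring
    have e4 : η * s N ≤ η * s N ^ r := mul_le_mul_of_nonneg_left hsr hη.le
    linarith
  have hLR0 : 0 ≤ LR := Real.logb_nonneg one_lt_two (by exact_mod_cast hR0)
  have hroot : LR ^ ((1 : ℝ) / r) ≤ (2 / x + η) ^ ((1 : ℝ) / r) * s N := by
    refine (Real.rpow_le_rpow hLR0 hLR' (by positivity)).trans (le_of_eq ?_)
    rw [Real.mul_rpow (by positivity) (by positivity), ← Real.rpow_natCast, ← Real.rpow_mul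
      (by linarith), mul_one_div, div_self hr0.ne', Real.rpow_one]
  have hwm : T N - ((d : ℝ) + η) * (m N : ℝ) ≤ (m N : ℝ) * Real.logb 2 (w N : ℝ) := by
    have := mul_le_mul_of_nonneg_left lwlo hmR.le
    rw [mul_sub, mul_sub, mul_div_cancel₀ _ hmR.ne'] at this
    linarith
  have hmd : ((d : ℝ) + η) * (m N : ℝ) + 1 ≤ (((d : ℝ) + η) * x + 2 * η) * s N := by
    have h1 : (m N : ℝ) ≤ x * s N + 1 :=
      (Nat.ceil_lt_add_one (mul_nonneg hx.le (by linarith))).le
    rw [div_le_iff₀ hη] at hs2 hs3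
    have := mul_le_mul_of_nonneg_left h1 (show 0 ≤ (d : ℝ) + η by positivity)
    linarith
  have hfin : (A + η) * LR ^ ((1 : ℝ) / r) ≤ (A + η) * ((2 / x + η) ^ ((1 : ℝ) / r) * s N) :=
    mul_le_mul_of_nonneg_left hroot (by linarith)
  have hv := mul_le_mul_of_nonneg_right hval.le (show (0 : ℝ) ≤ s N by linarith)
  show T N - _ * (T N) ^ ((1 : ℝ) / ((r + 1 : ℕ) : ℝ)) ≤ _
  push_cast
  change T N - _ * s N ≤ _
  linarith

/-- The optimised step: the invariant `g ^ r` gets multiplied by `2 d`. -/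
theorem good_step_opt {k d r : ℕ} (hd : 1 ≤ d) (hk : 2 * d < k) (hr : 1 ≤ r) {g g' : ℝ}
    (hg : 0 < g) (hg' : 0 < g') (heq : g' ^ (r + 1) = 2 * d * g ^ r)
    (h : Good k (2 * d) r (r * g)) : Good k d (r + 1) ((r + 1 : ℕ) * g') := by
  have hd0 : (0 : ℝ) < d := by exact_mod_cast hd
  have hr0 : (0 : ℝ) < r := by exact_mod_cast hr
  have h1 := good_step hk hr (by positivity) h (div_pos hg' hd0)
  have e : (2 / (g' / d)) ^ ((1 : ℝ) / r) = g' / g := by
    have : 2 / (g' / d) = (g' / g) ^ r := by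
      rw [div_pow, div_div_eq_mul_div, div_eq_div_iff hg'.ne' (by positivity), ← pow_succ, heq]
    rw [this, ← Real.rpow_natCast, ← Real.rpow_mul (by positivity), mul_one_div,
      div_self hr0.ne', Real.rpow_one]
  rw [e, mul_div_cancel₀ _ hd0.ne'] at h1
  convert h1 using 1
  push_cast
  field_simp
  ring

theorem good_chain {k n p : ℕ} (hp : p.Prime) (hnp : 2 ^ (n - 1) + 2 ≤ p) (hpk : p ≤ k)
    (hbig : 2 ^ (n - 1) < k) : ∀ j, j + 1 ≤ n → ∃ g : ℝ, 0 < g ∧
      g ^ (j + 1) = (2 : ℝ) ^ (∑ i ∈ range j, (n - 1 - i))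
        * (2 * 2 ^ (n - 1) / ((k : ℝ) + 2 ^ (n - 1))) ∧
      Good k (2 ^ (n - 1 - j)) (j + 1) ((j + 1 : ℕ) * g) := by
  intro j
  induction j with
  | zero =>
    intro _
    refine ⟨2 * 2 ^ (n - 1) / ((k : ℝ) + 2 ^ (n - 1)), by positivity, by simp, ?_⟩
    have := good_base hp hnp hpk
    push_cast at this
    simpa using this
  | succ j ih =>
    intro hj
    obtain ⟨g, hg, hgpow, hgood⟩ := ih (by omega)
    set d := 2 ^ (n - 1 - (j + 1)) with hd
    have h2d : 2 ^ (n - 1 - j) = 2 * d := by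
      rw [hd, ← pow_succ']; congr 1; omega
    set g' : ℝ := (2 * (d : ℝ) * g ^ (j + 1)) ^ (((j + 1 + 1 : ℕ) : ℝ)⁻¹) with hg'
    have hd0 : 1 ≤ d := Nat.one_le_two_pow
    have hd0' : (0 : ℝ) < d := by exact_mod_cast hd0
    have heq : g' ^ (j + 1 + 1) = 2 * (d : ℝ) * g ^ (j + 1) :=
      Real.rpow_inv_natCast_pow (by positivity) (by omega)
    refine ⟨g', by positivity, ?_, ?_⟩
    · rw [heq, hgpow, Finset.sum_range_succ, pow_add]
      have : (2 : ℝ) * d = 2 ^ (n - 1 - j) := by exact_mod_cast h2d.symm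
      rw [this]; ring
    · rw [h2d] at hgood
      refine good_step_opt hd0 ?_ (by omega) hg (by positivity) heq hgood
      rw [← h2d]
      exact lt_of_le_of_lt (Nat.pow_le_pow_right two_pos (by omega)) hbig

/-- The constant of the tower. -/
theorem good_one {k n p : ℕ} (hn : 1 ≤ n) (hp : p.Prime) (hnp : 2 ^ (n - 1) + 2 ≤ p) (hpk : p ≤ k) :
    Good k 1 n ((n : ℝ) * ((2 : ℝ) ^ (((n : ℝ) - 1) / 2)
      * (2 * 2 ^ (n - 1) / ((k : ℝ) + 2 ^ (n - 1))) ^ ((1 : ℝ) / n))) := by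
  obtain ⟨g, hg, hgpow, hgood⟩ :=
    good_chain (n := n) hp hnp hpk (by omega) (n - 1) (by omega)
  simp only [Nat.sub_self, pow_zero, Nat.sub_add_cancel hn] at hgood hgpow
  set q : ℝ := 2 * 2 ^ (n - 1) / ((k : ℝ) + 2 ^ (n - 1)) with hq
  have hq0 : 0 < q := by positivity
  have hsum : ((∑ i ∈ range (n - 1), (n - 1 - i) : ℕ) : ℝ) = (n : ℝ) * (((n : ℝ) - 1) / 2) := by
    have h1 : ∑ i ∈ range (n - 1), (n - 1 - i) = ∑ i ∈ range n, i := by
      obtain ⟨m, rfl⟩ : ∃ m, n = m + 1 := ⟨n - 1, by omega⟩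
      rw [Nat.add_sub_cancel, Finset.sum_range_succ' (fun i => i),
        ← Finset.sum_range_reflect (fun i => i + 1), add_zero]
      exact Finset.sum_congr rfl fun i hi => by rw [mem_range] at hi; omega
    rw [h1]
    have h2 : (((∑ i ∈ range n, i) * 2 : ℕ) : ℝ) = ((n * (n - 1) : ℕ) : ℝ) := by
      rw [Finset.sum_range_id_mul_two]
    push_cast [Nat.cast_sub hn] at h2 ⊢
    linarith
  have hn0 : (0 : ℝ) < n := by exact_mod_cast hn
  have : g = (2 : ℝ) ^ (((n : ℝ) - 1) / 2) * q ^ ((1 : ℝ) / n) := by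
    refine (pow_left_inj₀ hg.le (by positivity) (by omega : n ≠ 0)).1 ?_
    rw [hgpow, mul_pow, ← Real.rpow_mul_natCast hq0.le, one_div_mul_cancel hn0.ne', Real.rpow_one,
      ← Real.rpow_mul_natCast two_pos.le, mul_comm ((((n : ℝ) - 1) / 2)) (n : ℝ), ← hsum,
      Real.rpow_natCast]
  rw [this] at hgood
  exact hgood

/-- A prime between `2 ^ (n-1) + 2` and `2 ^ n`. -/
theorem exists_prime_between {n : ℕ} (hn : 3 ≤ n) :
    ∃ p, p.Prime ∧ 2 ^ (n - 1) + 2 ≤ p ∧ p ≤ 2 ^ n := by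
  set D := 2 ^ (n - 1) with hD
  have h2 : 2 ^ n = 2 * D := by rw [hD, ← pow_succ']; congr 1; omega
  have hD4 : 4 ≤ D := by
    calc 4 = 2 ^ 2 := rfl
      _ ≤ 2 ^ (n - 1) := Nat.pow_le_pow_right two_pos (by omega)
  have h3 : ∀ e, Odd e → 2 ≤ e → ¬ (2 ^ e + 1).Prime := by
    intro e he h2e hpr
    have hdvd : 3 ∣ 2 ^ e + 1 := by
      simpa using he.nat_add_dvd_pow_add_pow 2 1
    have := (Nat.prime_dvd_prime_iff_eq Nat.prime_three hpr).1 hdvd
    have : 2 ^ 2 ≤ 2 ^ e := Nat.pow_le_pow_right two_pos h2e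
    omega
  by_cases hc : (D + 1).Prime
  · obtain ⟨p, hp, h1, h4⟩ := Nat.exists_prime_lt_and_le_two_mul (D + 1) (by omega)
    refine ⟨p, hp, by omega, ?_⟩
    have hne1 : p ≠ 2 * D + 2 := by
      intro h; subst h
      have := (hp.eq_one_or_self_of_dvd 2 ⟨D + 1, by ring⟩)
      omega
    have hne2 : p ≠ 2 * D + 1 := by
      intro h; subst h
      rcases Nat.even_or_odd (n - 1) with he | ho
      · have : Odd n := by
          have := he.add_one
          rwa [Nat.sub_add_cancel (by omega)] at this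
        exact h3 n this (by omega) (by rwa [h2])
      · exact h3 (n - 1) ho (by omega) hc
    omega
  · obtain ⟨p, hp, h1, h4⟩ := Nat.exists_prime_lt_and_le_two_mul D (by omega)
    have hne : p ≠ D + 1 := fun h => hc (h ▸ hp)
    exact ⟨p, hp, by omega, by omega⟩

/-- The lower bound for `r_k`. -/
theorem rankin_random {n k p : ℕ} (hn : 1 ≤ n) (hp : p.Prime) (hnp : 2 ^ (n - 1) + 2 ≤ p)
    (hpk : p ≤ k) (C : ℝ)
    (hC : (n : ℝ) * (2 : ℝ) ^ (((n : ℝ) - 1) / 2)
      * (2 * 2 ^ (n - 1) / ((k : ℝ) + 2 ^ (n - 1))) ^ ((1 : ℝ) / n) < C) :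
    ∀ᶠ N : ℕ in atTop, ∃ A : Finset ℕ, A ⊆ Finset.Icc 1 N ∧
      (∀ a d : ℕ, 0 < d → ∃ j < k, a + j * d ∉ A) ∧
      (N : ℝ) * (2 : ℝ) ^ (-C * (Real.logb 2 N) ^ ((1 : ℝ) / n)) ≤ A.card := by
  have hg := good_one hn hp hnp hpk
  rw [mul_assoc] at hC
  filter_upwards [hg _ (sub_pos.2 hC), eventually_ge_atTop 1] with N hN h1
  obtain ⟨S, hSs, hSf, hSne, hSc⟩ := hN
  refine ⟨S.image (fun z => z.toNat + 1), ?_, ?_, ?_⟩
  · intro a ha
    obtain ⟨z, hz, rfl⟩ := Finset.mem_image.1 ha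
    have := Finset.mem_Ico.1 (hSs hz)
    exact Finset.mem_Icc.2 ⟨by omega, by omega⟩
  · intro a d hd
    by_contra hcon
    push Not at hcon
    have hmem : ∀ j < k, ((a + j * d : ℕ) : ℤ) - 1 ∈ S := by
      intro j hj
      obtain ⟨z, hz, he⟩ := Finset.mem_image.1 (hcon j hj)
      have h0 := (Finset.mem_Ico.1 (hSs hz)).1
      rw [← he]
      push_cast [Int.toNat_of_nonneg h0]
      simpa using hz
    have hseq : PolySeq k 1 (fun j => ((a + j * d : ℕ) : ℤ) - 1) := by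
      refine ⟨Polynomial.C (d : ℚ) * Polynomial.X + Polynomial.C ((a : ℚ) - 1),
        Polynomial.natDegree_linear_le, fun j _ => ?_⟩
      simp only [Polynomial.eval_add, Polynomial.eval_mul, Polynomial.eval_C, Polynomial.eval_X]
      push_cast; ring
    have hp2 := hp.two_le
    have := hSf _ hseq hmem 1 (by omega)
    push_cast at this
    linarith [(show (0 : ℤ) < d by exact_mod_cast hd)]
  · rw [Finset.card_image_of_injOn]
    · have hN0 : (0 : ℝ) < N := by exact_mod_cast h1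
      have hS0 : (0 : ℝ) < S.card := by exact_mod_cast hSne.card_pos
      have h2 := (Real.le_logb_iff_rpow_le one_lt_two hS0).1 hSc
      refine le_trans (le_of_eq ?_) h2
      rw [add_sub_cancel, sub_eq_add_neg, Real.rpow_add two_pos,
        Real.rpow_logb two_pos (by norm_num) hN0, neg_mul]
    · intro u hu v hv h
      have := (Finset.mem_Ico.1 (hSs hu)).1
      have := (Finset.mem_Ico.1 (hSs hv)).1
      simp only at h
      omega

end Vale.Agent.P057.Gen
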