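import Mathlib

/-! Sequences agreeing with polynomials on an initial segment, and a greedy set free of them. -/

namespace Vale.Agent.P057.Gen

open Finset Polynomial

/-- The `n`-th forward difference of `f` at `j`. -/
def dsum (n : ℕ) (f : ℕ → ℤ) (j : ℕ) : ℤ :=
  ∑ i ∈ range (n + 1), ((-1 : ℤ) ^ (n - i) * n.choose i) * f (j + i)

theorem dsum_eq (n : ℕ) (f : ℕ → ℤ) (j : ℕ) : dsum n f j = (fwdDiff 1)^[n] f j := by
  rw [fwdDiff_iter_eq_sum_shift, dsum]
  simp

/-- `f` agrees on `[0,k)` with a rational polynomial of degree at most `d`. -/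
def PolySeq (k d : ℕ) (f : ℕ → ℤ) : Prop :=
  ∃ P : ℚ[X], P.natDegree ≤ d ∧ ∀ j < k, P.eval (j : ℚ) = (f j : ℚ)

/-- In `C` polynomial progressions of degree at most `d` and length `k` are constant. -/
def PolyFree (k d : ℕ) (C : Finset ℤ) : Prop :=
  ∀ f : ℕ → ℤ, PolySeq k d f → (∀ j < k, f j ∈ C) → ∀ j < k, f j = f 0

theorem PolySeq.dsum_zero {k d : ℕ} {f : ℕ → ℤ} (h : PolySeq k d f) {n j : ℕ} (hn : d < n)
    (hj : j + n < k) : dsum n f j = 0 := by
  obtain ⟨P, hP, he⟩ := h
  have h0 := congrFun (P.fwdDiff_iter_eq_zero_of_degree_lt (n := n) (by omega)) (j : ℚ)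
  rw [fwdDiff_iter_eq_sum_shift] at h0
  have : (dsum n f j : ℚ) = 0 := by
    rw [← Pi.zero_apply (M := fun _ : ℚ => ℚ) (j : ℚ), ← h0, dsum]
    push_cast
    refine Finset.sum_congr rfl fun i hi => ?_
    rw [zsmul_eq_mul, nsmul_one, ← Nat.cast_add, he (j + i) (by rw [mem_range] at hi; omega)]
    push_cast
    ring
  exact_mod_cast this

theorem PolySeq.of_dsum {k d : ℕ} {f : ℕ → ℤ}
    (h : ∀ j, j + (d + 1) < k → dsum (d + 1) f j = 0) : PolySeq k d f := by
  refine ⟨∑ l ∈ range (d + 1),
    Polynomial.C (((dsum l f 0 : ℤ) : ℚ) / (l.factorial : ℚ)) * descPochhammer ℚ l, ?_, ?_⟩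
  · refine natDegree_sum_le_of_forall_le _ _ fun l hl => (natDegree_C_mul_le _ _).trans ?_
    rw [descPochhammer_natDegree]
    rw [mem_range] at hl; omega
  · intro j hj
    have hN : f j = ∑ l ∈ range (j + 1), (j.choose l : ℤ) * dsum l f 0 := by
      have := shift_eq_sum_fwdDiff_iter (h := 1) f j 0
      simp only [zero_add, smul_eq_mul, mul_one, nsmul_eq_mul] at this
      rw [this]
      exact Finset.sum_congr rfl fun l _ => by rw [dsum_eq]
    have hz : ∀ l, d < l → l < k → dsum l f 0 = 0 := by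
      intro l hl hlk
      obtain ⟨e, rfl⟩ : ∃ e, l = e + (d + 1) := ⟨l - (d + 1), by omega⟩
      rw [dsum_eq, Function.iterate_add_apply, fwdDiff_iter_eq_sum_shift]
      refine Finset.sum_eq_zero fun i hi => ?_
      rw [mem_range] at hi
      rw [← dsum_eq, zero_add, nsmul_one, Nat.cast_id, h i (by omega), smul_zero]
    have hext : (∑ l ∈ range (d + 1), (j.choose l : ℤ) * dsum l f 0) = f j := by
      rw [hN]
      rcases le_or_gt (d + 1) (j + 1) with hle | hle
      · refine Finset.sum_subset (range_subset_range.2 hle) fun l hl hl' => ?_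
        rw [mem_range] at hl hl'
        rw [hz l (by omega) (by omega), mul_zero]
      · refine (Finset.sum_subset (range_subset_range.2 hle.le) fun l _ hl' => ?_).symm
        rw [mem_range] at hl'
        rw [Nat.choose_eq_zero_of_lt (by omega)]; simp
    rw [eval_finsetSum, ← hext]
    push_cast
    refine Finset.sum_congr rfl fun l _ => ?_
    rw [eval_mul, eval_C, Nat.cast_choose_eq_descPochhammer_div]
    ring

theorem PolySeq.eq_zero {k d : ℕ} {f : ℕ → ℤ} (h : PolySeq k d f) (U : Finset ℕ)
    (hU : ∀ i ∈ U, i < k) (hc : d < U.card) (h0 : ∀ i ∈ U, f i = 0) : ∀ i < k, f i = 0 := by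
  obtain ⟨P, hP, he⟩ := h
  have hz : P = 0 := by
    refine eq_zero_of_natDegree_lt_card_of_eval_eq_zero' P (U.image (fun i : ℕ => (i : ℚ))) ?_ ?_
    · intro x hx
      obtain ⟨i, hi, rfl⟩ := Finset.mem_image.1 hx
      rw [he i (hU i hi), h0 i hi, Int.cast_zero]
    · rw [Finset.card_image_of_injective _ Nat.cast_injective]
      omega
  intro i hi
  have := he i hi
  rw [hz, eval_zero] at this
  exact_mod_cast this.symm

theorem PolySeq.sub {k d : ℕ} {f g : ℕ → ℤ} (hf : PolySeq k d f) (hg : PolySeq k d g) :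
    PolySeq k d (fun i => f i - g i) := by
  obtain ⟨P, hP, hPe⟩ := hf
  obtain ⟨Q, hQ, hQe⟩ := hg
  refine ⟨P - Q, (natDegree_sub_le P Q).trans (max_le hP hQ), fun j hj => ?_⟩
  rw [eval_sub, hPe j hj, hQe j hj]; push_cast; rfl

/-- An indicator sequence of degree at most `p - 2` on at least `p` points is constant. -/
theorem indicator_const {k d p : ℕ} (hp : p.Prime) (hdp : d + 2 ≤ p) (hpk : p ≤ k) {f : ℕ → ℤ}
    (hf : PolySeq k d f) (h01 : ∀ i < k, f i = 0 ∨ f i = 1) : ∀ i < k, f i = f 0 := by
  have := Fact.mk hp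
  have hwin : ∀ j, j + p ≤ k → ∀ a < p, ∀ b < p, f (j + a) = f (j + b) := by
    intro j hj
    have hd := hf.dsum_zero (n := p - 1) (j := j) (by omega) (by omega)
    have hs : ((∑ i ∈ range p, f (j + i) : ℤ) : ZMod p) = 0 := by
      have h1 := congrArg (Int.cast : ℤ → ZMod p) hd
      rw [dsum, Nat.sub_add_cancel hp.one_le] at h1
      push_cast at h1 ⊢
      rw [← h1]
      refine Finset.sum_congr rfl fun i hi => ?_
      rw [mem_range] at hi
      have hm := one_mul (f (j + i) : ZMod p)
      have hc : ((p - 1).choose i : ZMod p) = (-1) ^ i := by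
        induction i with
        | zero => simp
        | succ i ih =>
          have h2 : p.choose (i + 1) = (p - 1).choose i + (p - 1).choose (i + 1) := by
            conv_lhs => rw [← Nat.sub_add_cancel hp.one_le]
            rw [Nat.choose_succ_succ']
          have h3 : (p.choose (i + 1) : ZMod p) = 0 :=
            (ZMod.natCast_eq_zero_iff _ _).2 (hp.dvd_choose_self (by omega) hi)
          rw [h2] at h3
          push_cast at h3
          rw [ih (by omega) (one_mul _)] at h3
          rw [pow_succ]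
          linear_combination h3
      rw [hc, ← pow_add, show p - 1 - i + i = p - 1 by omega]
      rw [ZMod.pow_card_sub_one_eq_one (by
        exact neg_ne_zero.2 one_ne_zero), one_mul]
    have hdiv : (p : ℤ) ∣ ∑ i ∈ range p, f (j + i) := (ZMod.intCast_zmod_eq_zero_iff_dvd _ _).1 hs
    have hle : ∀ i ∈ range p, 0 ≤ f (j + i) ∧ f (j + i) ≤ 1 := by
      intro i hi
      rw [mem_range] at hi
      rcases h01 (j + i) (by omega) with h | h <;> simp [h]
    have hlo : 0 ≤ ∑ i ∈ range p, f (j + i) := Finset.sum_nonneg fun i hi => (hle i hi).1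
    obtain ⟨e, he⟩ := hdiv
    have hhi : ∑ i ∈ range p, f (j + i) ≤ (p : ℤ) := by
      refine (Finset.sum_le_sum fun i hi => (hle i hi).2).trans ?_
      simp
    have hp0 : (0 : ℤ) < p := by exact_mod_cast hp.pos
    have he01 : e = 0 ∨ e = 1 := by
      have a1 : 0 ≤ e := by by_contra hlt; push Not at hlt; nlinarith
      have a2 : e ≤ 1 := by by_contra hlt; push Not at hlt; nlinarith
      omega
    rcases he01 with rfl | rfl
    · rw [mul_zero] at he
      have := (Finset.sum_eq_zero_iff_of_nonneg fun i hi => (hle i hi).1).1 he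
      intro a ha b hb
      rw [this a (mem_range.2 ha), this b (mem_range.2 hb)]
    · rw [mul_one] at he
      have h1 : ∑ i ∈ range p, (1 - f (j + i)) = 0 := by
        rw [Finset.sum_sub_distrib, he]; simp
      have := (Finset.sum_eq_zero_iff_of_nonneg fun i hi => by linarith [(hle i hi).2]).1 h1
      intro a ha b hb
      linarith [this a (mem_range.2 ha), this b (mem_range.2 hb)]
  have hp2 := hp.two_le
  intro i
  induction i with
  | zero => intro _; rfl
  | succ i ih =>
    intro hi
    rw [← ih (by omega)]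
    rcases le_or_gt (i + p) k with h | h
    · exact hwin i h 1 (by omega) 0 (by omega)
    · have := hwin (k - p) (by omega) (i + 1 - (k - p)) (by omega) (i - (k - p)) (by omega)
      rwa [Nat.add_sub_cancel' (by omega), Nat.add_sub_cancel' (by omega)] at this

/-- Witnesses that `x` cannot be added to `B`. -/
def Blocks (k d : ℕ) (B : Finset ℤ) (S : Finset ℕ) (x : ℤ) : Prop :=
  ∃ f : ℕ → ℤ, PolySeq k d f ∧ (∀ i ∈ S, f i = x) ∧ (∀ i ∈ range k, i ∉ S → f i ∈ B) ∧
    S.Nonempty ∧ S ⊂ range k

theorem card_blocked_le {k d p : ℕ} (hp : p.Prime) (hdp : d + 2 ≤ p) (hpk : p ≤ k)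
    (B : Finset ℤ) (hB : B.Nonempty) (X : Finset ℤ) (S : Finset ℕ)
    (hX : ∀ x ∈ X, Blocks k d B S x) : X.card ≤ B.card ^ (d + 1) := by
  classical
  rcases X.eq_empty_or_nonempty with rfl | ⟨x0, hx0⟩
  · simp
  obtain ⟨-, -, -, -, ⟨s, hs⟩, hssub⟩ := hX x0 hx0
  have hsk : s < k := mem_range.1 (hssub.1 hs)
  obtain ⟨U, hUk, hUc, hdet⟩ : ∃ U : Finset ℕ, U ⊆ range k \ S ∧ U.card ≤ d + 1 ∧
      (d < U.card ∨ ∀ i ∈ range k, i ∉ S → i ∈ U) := by
    by_cases h : d + 1 ≤ (range k \ S).card
    · obtain ⟨U, hU, hc⟩ := Finset.exists_subset_card_eq h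
      exact ⟨U, hU, hc.le, Or.inl (by omega)⟩
    · exact ⟨range k \ S, subset_refl _, by omega,
        Or.inr fun i hi hi' => Finset.mem_sdiff.2 ⟨hi, hi'⟩⟩
  choose! F hF using hX
  have key : X.card ≤ (U.pi (fun _ => B)).card := by
    refine Finset.card_le_card_of_injOn (fun x i _ => F x i) ?_ ?_
    · intro x hx
      rw [Finset.mem_coe, Finset.mem_pi]
      intro i hi
      obtain ⟨hik, hiS⟩ := Finset.mem_sdiff.1 (hUk hi)
      exact (hF x hx).2.2.1 i hik hiS
    · intro x hx y hy hxy
      obtain ⟨qx, sx, -, -, -⟩ := hF x hx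
      obtain ⟨qy, sy, -, -, -⟩ := hF y hy
      have hd : ∀ i ∈ U, F x i - F y i = 0 := fun i hi => by
        have h2 : F x i = F y i := congrFun (congrFun hxy i) hi
        rw [h2, sub_self]
      have hq := qx.sub qy
      rcases hdet with h5 | hall
      · have := hq.eq_zero U (fun i hi => mem_range.1 (Finset.mem_sdiff.1 (hUk hi)).1) h5 hd s hsk
        simp only [sx s hs, sy s hs] at this
        omega
      · by_contra hne
        obtain ⟨P, hPd, hPe⟩ := hq
        have hxy0 : ((x - y : ℤ) : ℚ) ≠ 0 := by exact_mod_cast sub_ne_zero.2 hne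
        have hind : PolySeq k d (fun i => if i ∈ S then 1 else 0) := by
          refine ⟨Polynomial.C (((x - y : ℤ) : ℚ))⁻¹ * P, (natDegree_C_mul_le _ _).trans hPd,
            fun j hj => ?_⟩
          rw [eval_mul, eval_C, hPe j hj]
          dsimp only
          by_cases hjS : j ∈ S
          · rw [if_pos hjS, sx j hjS, sy j hjS, inv_mul_cancel₀ hxy0, Int.cast_one]
          · rw [if_neg hjS, hd j (hall j (mem_range.2 hj) hjS), Int.cast_zero, mul_zero]
        have hc := indicator_const hp hdp hpk hind (fun i _ => by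
          by_cases h : i ∈ S <;> simp [h])
        obtain ⟨i, hik, hiS⟩ := Finset.exists_of_ssubset hssub
        have h1 := hc s hsk
        have h2 := hc i (mem_range.1 hik)
        simp only [hs, if_true] at h1
        simp only [hiS, if_false, ← h1] at h2
        norm_num at h2
  refine key.trans ?_
  rw [Finset.card_pi, Finset.prod_const]
  exact Nat.pow_le_pow_right hB.card_pos hUc

/-- A greedy progression-free set of size about `R^(1/(d+1))`. -/
theorem exists_polyFree {k d p : ℕ} (hp : p.Prime) (hdp : d + 2 ≤ p) (hpk : p ≤ k) (R : ℕ)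
    (hR : 0 < R) :
    ∃ B : Finset ℤ, B ⊆ Finset.Ico (0 : ℤ) R ∧ PolyFree k d B ∧ B.Nonempty ∧
      R ≤ (2 ^ k + 1) * B.card ^ (d + 1) := by
  classical
  let fam := (Finset.Ico (0 : ℤ) R).powerset.filter (PolyFree k d)
  have h0 : ({0} : Finset ℤ) ∈ fam := by
    refine Finset.mem_filter.2 ⟨Finset.mem_powerset.2 (by simpa using hR), fun f _ hf i hi => ?_⟩
    rw [Finset.mem_singleton.1 (hf i hi), Finset.mem_singleton.1 (hf 0 (by omega))]
  obtain ⟨B, hB, hmax⟩ := Finset.exists_max_image fam Finset.card ⟨_, h0⟩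
  obtain ⟨hBs, hBf⟩ := Finset.mem_filter.1 hB
  rw [Finset.mem_powerset] at hBs
  have hne : B.Nonempty := Finset.card_pos.1 (lt_of_lt_of_le (by simp) (hmax _ h0))
  refine ⟨B, hBs, hBf, hne, ?_⟩
  have hcover : Finset.Ico (0 : ℤ) R ⊆ B ∪ (range k).powerset.biUnion
      (fun S => (Finset.Ico (0 : ℤ) R).filter (Blocks k d B S)) := by
    intro x hx
    by_cases hxB : x ∈ B
    · exact Finset.mem_union_left _ hxB
    refine Finset.mem_union_right _ ?_
    have hnot : ¬ PolyFree k d (insert x B) := by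
      intro h
      have := hmax (insert x B) (Finset.mem_filter.2
        ⟨Finset.mem_powerset.2 (Finset.insert_subset hx hBs), h⟩)
      rw [Finset.card_insert_of_notMem hxB] at this
      omega
    unfold PolyFree at hnot
    push Not at hnot
    obtain ⟨f, hf, hmem, i, hik, hi⟩ := hnot
    rw [Finset.mem_biUnion]
    refine ⟨(range k).filter (fun l => f l = x), Finset.mem_powerset.2 (Finset.filter_subset _ _),
      Finset.mem_filter.2 ⟨hx, f, hf, fun l hl => (Finset.mem_filter.1 hl).2, ?_, ?_, ?_⟩⟩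
    · intro l hlk hl
      rcases Finset.mem_insert.1 (hmem l (mem_range.1 hlk)) with h | h
      · exact absurd (Finset.mem_filter.2 ⟨hlk, h⟩) hl
      · exact h
    · by_contra hemp
      rw [Finset.not_nonempty_iff_eq_empty, Finset.filter_eq_empty_iff] at hemp
      refine hi (hBf f hf (fun l hl => ?_) i hik)
      rcases Finset.mem_insert.1 (hmem l hl) with h | h
      · exact absurd h (hemp (mem_range.2 hl))
      · exact h
    · refine (Finset.filter_subset _ _).ssubset_of_ne fun heq => hi ?_
      rw [Finset.filter_eq_self.1 heq i (mem_range.2 hik),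
        Finset.filter_eq_self.1 heq 0 (mem_range.2 (by omega))]
  have h1 := (Finset.card_le_card hcover).trans (Finset.card_union_le _ _)
  have h2 : ((range k).powerset.biUnion
      (fun S => (Finset.Ico (0 : ℤ) R).filter (Blocks k d B S))).card ≤ 2 ^ k * B.card ^ (d + 1) := by
    refine Finset.card_biUnion_le.trans ((Finset.sum_le_sum fun S _ =>
      card_blocked_le hp hdp hpk B hne _ S (fun x hx => (Finset.mem_filter.1 hx).2)).trans ?_)
    simp
  have h3 : B.card ≤ B.card ^ (d + 1) := Nat.le_self_pow (by omega) _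
  simp at h1
  rw [add_mul, one_mul]
  omega

end Vale.Agent.P057.Gen
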